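import Vale.Agent.P047.Final

namespace Vale.Agent.Results.P047.Disproof

open Finset

/-- The bit `false` is the point `+1`, the bit `true` is the point `-1`. -/
def sign (b : Bool) : ℝ := if b then -1 else 1

/-- Fourier coefficient: the average of `f x * ∏ i ∈ S, x i` over the cube `{-1,1}^n`. -/
noncomputable def fourier {n : ℕ} (f : (Fin n → Bool) → ℝ) (S : Finset (Fin n)) : ℝ :=
  (∑ x : Fin n → Bool, f x * ∏ i ∈ S, sign (x i)) / 2 ^ n

open Classical in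
/-- Fourier degree: the largest size of a set with nonzero coefficient. -/
noncomputable def degree {n : ℕ} (f : (Fin n → Bool) → ℝ) : ℕ :=
  (univ.filter fun S : Finset (Fin n) => fourier f S ≠ 0).sup Finset.card

/-- Boolean functions take values in `{-1, 1}`. -/
def IsBoolean {n : ℕ} (f : (Fin n → Bool) → ℝ) : Prop := ∀ x, f x = 1 ∨ f x = -1

lemma fourier_eq {n : ℕ} (f : (Fin n → Bool) → ℝ) (S : Finset (Fin n)) :
    fourier f S = P047.hat f S := by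
  simp only [fourier, P047.hat, P047.E, Fintype.card_fun, Fintype.card_bool, Fintype.card_fin]
  push_cast
  rfl

lemma growth : ∃ ε : ℝ, 0 < ε ∧ ∃ c : ℝ, 0 < c ∧ ∀ d : ℕ, 1 ≤ d →
    ∃ (n : ℕ) (f : (Fin n → Bool) → ℝ), 1 ≤ n ∧ IsBoolean f ∧ degree f ≤ d ∧
      c * (d : ℝ) ^ (1 / 2 + ε) ≤ ∑ i, fourier f {i} := by
  obtain ⟨ε, hε, c, hc, h⟩ := P047.growth
  refine ⟨ε, hε, c, hc, fun d hd => ?_⟩
  obtain ⟨n, f, hn, hf, hL⟩ := h d hd
  refine ⟨n, fun x => P047.sg (f x), hn, fun x => ?_, ?_, ?_⟩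
  · show P047.sg (f x) = 1 ∨ P047.sg (f x) = -1
    cases f x <;> simp [P047.sg]
  · refine Finset.sup_le fun S hS => ?_
    by_contra hlt
    exact (mem_filter.mp hS).2 (by rw [fourier_eq]; exact P047.mem_V_iff.mp hf S (not_le.mp hlt))
  · simp only [fourier_eq]
    rw [← P047.Lin_eq]
    exact hL

lemma unbounded (C : ℝ) : ∃ (n : ℕ) (f : (Fin n → Bool) → ℝ), 1 ≤ n ∧ IsBoolean f ∧
    C * Real.sqrt (degree f) < ∑ i, fourier f {i} := by
  obtain ⟨ε, hε, c, hc, h⟩ := growth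
  have h1 := (tendsto_rpow_atTop hε).comp tendsto_natCast_atTop_atTop
  obtain ⟨d, hd1, hd2⟩ := ((h1.eventually_gt_atTop (|C| / c)).and
    (Filter.eventually_ge_atTop 1)).exists
  obtain ⟨n, f, hn, hf, hdeg, hL⟩ := h d hd2
  refine ⟨n, f, hn, hf, lt_of_lt_of_le ?_ hL⟩
  have hd0 : (0 : ℝ) < d := by exact_mod_cast hd2
  have h2 : Real.sqrt (degree f) ≤ Real.sqrt d := Real.sqrt_le_sqrt (by exact_mod_cast hdeg)
  have h3 : 0 < Real.sqrt d := Real.sqrt_pos.mpr hd0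
  simp only [Function.comp] at hd1
  rw [div_lt_iff₀ hc] at hd1
  rw [Real.rpow_add hd0, ← Real.sqrt_eq_rpow]
  calc C * Real.sqrt (degree f) ≤ |C| * Real.sqrt d :=
        mul_le_mul (le_abs_self C) h2 (Real.sqrt_nonneg _) (abs_nonneg _)
    _ < ((d : ℝ) ^ ε * c) * Real.sqrt d := by gcongr
    _ = _ := by ring

theorem result :
    (¬ ∀ (n : ℕ) (f : (Fin n → Bool) → ℝ), 1 ≤ n → IsBoolean f →
      ∑ i, fourier f {i} ≤ Real.sqrt (degree f)) ∧
    (¬ ∃ C : ℝ, ∀ (n : ℕ) (f : (Fin n → Bool) → ℝ), 1 ≤ n → IsBoolean f →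
      ∑ i, fourier f {i} ≤ C * Real.sqrt (degree f)) ∧
    (∃ ε : ℝ, 0 < ε ∧ ∃ c : ℝ, 0 < c ∧ ∀ d : ℕ, 1 ≤ d →
      ∃ (n : ℕ) (f : (Fin n → Bool) → ℝ), 1 ≤ n ∧ IsBoolean f ∧ degree f ≤ d ∧
        c * (d : ℝ) ^ (1 / 2 + ε) ≤ ∑ i, fourier f {i}) := by
  refine ⟨fun h => ?_, ?_, growth⟩
  · obtain ⟨n, f, hn, hf, hlt⟩ := unbounded 1
    rw [one_mul] at hlt
    exact absurd (h n f hn hf) (not_le.mpr hlt)
  · rintro ⟨C, h⟩
    obtain ⟨n, f, hn, hf, hlt⟩ := unbounded C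
    exact absurd (h n f hn hf) (not_le.mpr hlt)

end Vale.Agent.Results.P047.Disproof
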